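import Crest.Agent.X262.Tree87.T4
import Crest.Agent.X262.Vb.Bas1

/-!
# Row 262, road B (helper18), EQI part 1: products and division on tree-like configurations

* `tl_mul` : products of sections;  `tl_div` : division by forms without common zero.
-/

set_option autoImplicit false
set_option linter.unusedSectionVars false

noncomputable section

namespace Crest.Agent.X262.Eqi

open Polynomial Crest.Agent.X262.Bub96 Crest.Agent.X262.Bub96.Tr Crest.Agent.X262.Vb
open Crest.Agent.X262.Tree87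
open Crest.Agent.X262.Node22 (scl chr pv_scl chr_ne)

variable {J : Type} [Fintype J] [DecidableEq J] {io : J → Type} [∀ j, Fintype (io j)]
  [∀ j, DecidableEq (io j)] {I : Type} [Fintype I] {E : Type} [Field E] [Algebra ℂ E]

theorem dot_add' (κ κ' d : J → ℕ) : dot (κ + κ') d = dot κ d + dot κ' d := by
  simp only [dot, Pi.add_apply, add_mul, Finset.sum_add_distrib]

theorem chr_add (c : J → E) (κ κ' : J → ℕ) : chr c (κ + κ') = chr c κ * chr c κ' := by
  simp only [chr, Pi.add_apply, pow_add, Finset.prod_mul_distrib]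

section tree

variable {k : Type} [Field k] {t : Tr k J io} {κ κ' : J → ℕ} {s s' : t.Vx → k[X]}

theorem val_mul (h : ∀ v, (s v).natDegree ≤ dot κ (t.vd v))
    (h' : ∀ v, (s' v).natDegree ≤ dot κ' (t.vd v)) (x : t.Pt) :
    val (κ + κ') t (s * s') x = val κ t s x * val κ' t s' x := by
  rw [val, dot_add']
  exact hv_mul (h _) (h' _) _

theorem isSec_mul (ht : t.OK) (h : t.IsSec κ s) (h' : t.IsSec κ' s') :
    t.IsSec (κ + κ') (s * s') :=
  isSec_of_same ht (fun v => dot_add' κ κ' _ ▸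
    natDegree_mul_le.trans (add_le_add (h.natDegree_le v) (h'.natDegree_le v))) fun x y hxy => by
      rw [val_mul h.natDegree_le h'.natDegree_le, val_mul h.natDegree_le h'.natDegree_le,
        hxy.2 _ _ h, hxy.2 _ _ h']

/-- division by binary forms without common zero -/
theorem poly_div [IsAlgClosed k] {ι : Type} [Fintype ι] {m w : ι → k[X]} {e n : ℕ}
    (hm : ∀ i, (m i).natDegree ≤ e) (h0 : ∀ p, ∃ i, hv e (m i) p ≠ 0)
    (hw : ∀ i, (w i).natDegree ≤ e + n) (h : ∀ i i', m i' * w i = m i * w i') :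
    ∃ s : k[X], s.natDegree ≤ n ∧ ∀ i, w i = m i * s := by
  have h1 : Ideal.span (Set.range m) = ⊤ := by
    obtain ⟨g, hg⟩ := (IsPrincipalIdealRing.principal (Ideal.span (Set.range m))).principal
    have hd : ∀ i, g ∣ m i := fun i => by
      rw [← Ideal.mem_span_singleton, Ideal.span, ← hg]
      exact Ideal.subset_span ⟨i, rfl⟩
    rw [hg]
    refine Ideal.span_singleton_eq_top.mpr (by_contra fun hu => ?_)
    obtain ⟨a, ha⟩ := IsAlgClosed.exists_root g fun h0 => hu (isUnit_iff_degree_eq_zero.mpr h0)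
    obtain ⟨i, hi⟩ := h0 (some a)
    exact hi (eval_eq_zero_of_dvd_of_eval_eq_zero (hd i) ha)
  obtain ⟨a, ha⟩ := Ideal.mem_span_range_iff_exists_fun.1 (h1 ▸ Submodule.mem_top : (1 : k[X]) ∈ _)
  have h2 : ∀ i, w i = m i * ∑ l, a l * w l := fun i => by
    rw [← one_mul (w i), ← ha, Finset.sum_mul, Finset.mul_sum]
    exact Finset.sum_congr rfl fun l _ => by rw [mul_assoc, h i l, mul_left_comm]
  refine ⟨_, ?_, h2⟩
  obtain ⟨i, hi⟩ := h0 none
  by_cases h3 : ∑ l, a l * w l = 0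
  · rw [h3]; simp
  · have h4 := hw i
    have h5 : m i ≠ 0 := fun h5 => hi (by simp [h5])
    rw [h2 i, natDegree_mul h5 h3, (hm i).antisymm (le_natDegree_of_ne_zero hi)] at h4
    omega

end tree

variable {d : J → ℕ} {N : ℕ} {z : Cfg io I E} {κ κ' e : J → ℕ} {u u' : I → E}

theorem td_mem {k : Type} [Field k] [Algebra ℂ k] (D : TD d N z k) (hκ : ∀ j, κ j ≤ N) :
    u ∈ z.V κ ↔ ∃ s, D.t.IsSec κ s ∧ ∀ q, val κ D.t s (D.sp q) = chr (D.c q) κ * D.α (u q) := by
  rw [← D.mem_V hκ, ← Tree87.map_mem_mapS_iff D.α,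
    ← mul_mem_sclS_iff fun q => chr_ne (D.c_ne q) κ]
  rfl

theorem td_pv {k : Type} [Field k] [Algebra ℂ k] (D : TD d N z k) {g : MvPolynomial (Vr io) ℂ}
    (hg : MH g e) (q : I) : pv (D.t.ev (D.sp q)) g = chr (D.c q) e * D.α (pv (z.y q) g) := by
  rw [D.ev_sp, ← Tree87.pv_map]
  exact pv_scl hg _ _

/-- products of sections -/
theorem tl_mul (h : TL d N z) (hκ : ∀ j, κ j + κ' j ≤ N) (hu : u ∈ z.V κ) (hu' : u' ∈ z.V κ') :
    u * u' ∈ z.V (κ + κ') := by
  obtain ⟨k, _, _, _, ⟨D⟩⟩ := h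
  obtain ⟨s, h1, h2⟩ := (td_mem D fun j => (Nat.le_add_right _ _).trans (hκ j)).1 hu
  obtain ⟨s', h3, h4⟩ := (td_mem D fun j => (Nat.le_add_left _ _).trans (hκ j)).1 hu'
  refine (td_mem D (κ := κ + κ') hκ).2 ⟨_, isSec_mul D.ok h1 h3, fun q => ?_⟩
  rw [val_mul h1.natDegree_le h3.natDegree_le, h2, h4, chr_add, Pi.mul_apply, map_mul]
  ring

/-- **division** by forms without common zero -/
theorem tl_div (h : TL d N z) (hκ : ∀ j, 2 * e j + κ j ≤ N) {ι : Type} [Fintype ι]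
    {μ : ι → MvPolynomial (Vr io) ℂ} (hμ : ∀ i, MH (μ i) e)
    (h0 : ∀ (k : Type) [Field k] [Algebra ℂ k] (y : Pnt io k), NZ y → ∃ i, pv y (μ i) ≠ 0)
    (hu : ∀ i, (fun q => pv (z.y q) (μ i) * u q) ∈ z.V (e + κ)) : u ∈ z.V κ := by
  obtain ⟨k, _, _, _, ⟨D⟩⟩ := h
  choose w h1 h2 using fun i => (td_mem D (κ := e + κ) fun j => by
    have := hκ j; simp only [Pi.add_apply]; omega).1 (hu i)
  have h3 := fun i => isSec_sb (hμ i) D.ok
  have h4 : ∀ i q, val (e + κ) D.t (w i) (D.sp q) =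
      pv (D.t.ev (D.sp q)) (μ i) * (chr (D.c q) κ * D.α (u q)) := fun i q => by
    rw [h2, td_pv D (hμ i), chr_add, map_mul]
    ring
  have h5 : ∀ i i' v, sb (D.t.vg v) (μ i') * w i v = sb (D.t.vg v) (μ i) * w i' v := by
    intro i i' v
    have h6 := isSec_mul D.ok (h3 i').1 (h1 i)
    have h7 := isSec_mul D.ok (h3 i).1 (h1 i')
    have h8 := D.eq_zero (κ := e + (e + κ)) (fun j => by
      have := hκ j; simp only [Pi.add_apply]; omega) (h6.add (h7.smul (-1))) fun q => by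
      rw [val_add, val_smul, val_mul (h3 i').1.natDegree_le (h1 i).natDegree_le,
        val_mul (h3 i).1.natDegree_le (h1 i').natDegree_le, (h3 i).2, (h3 i').2, h4, h4]
      ring
    have h9 := congrFun h8 v
    simp only [Pi.add_apply, Pi.mul_apply, neg_smul, one_smul, Pi.zero_apply, Pi.neg_apply] at h9
    exact add_neg_eq_zero.1 h9
  have h6 : ∀ x : D.t.Pt, ∃ i, pv (D.t.ev x) (μ i) ≠ 0 := fun x => h0 k _ (nz_ev D.t D.ok x)
  choose s h7 h8 using fun v => poly_div (n := dot κ (D.t.vd v))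
    (fun i => (h3 i).1.natDegree_le v)
    (fun p => (h6 (v, p)).imp fun i hi => ((h3 i).2 (v, p)).trans_ne hi)
    (fun i => dot_add' e κ _ ▸ (h1 i).natDegree_le v) fun i i' => h5 i i' v
  have h9 : ∀ i x, val (e + κ) D.t (w i) x = pv (D.t.ev x) (μ i) * val κ D.t s x := fun i x => by
    rw [← (h3 i).2, ← val_mul (h3 i).1.natDegree_le h7]
    exact congrArg (fun f => val (e + κ) D.t f x) (funext fun v => h8 v i)
  refine (td_mem D fun j => (Nat.le_add_left _ _).trans (hκ j)).2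
    ⟨s, isSec_of_same D.ok h7 fun x y hxy => ?_, fun q => ?_⟩
  · obtain ⟨i, hi⟩ := h6 x
    refine mul_left_cancel₀ hi ?_
    rw [← h9, hxy.2 _ _ (h1 i), h9, same_ev hxy]
  · obtain ⟨i, hi⟩ := h6 (D.sp q)
    exact mul_left_cancel₀ hi ((h9 i _).symm.trans (h4 i q))

end Crest.Agent.X262.Eqi
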