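import Crest.Agent.X262.End66.Loc
import Crest.Agent.X262.Syz.Sat0
import Crest.Agent.X262.Fano21.CI

/-!
# Row 262, road B (helper18): smooth targets are determined by their points

* `loc_of_cx`      : `Loc` can be tested at the complex points;
* `exists_mul_mem` : Nakayama at a smooth point;
* `loc_of_points`, `same_of_points` : smooth targets are reduced;
* `loc_of_ker`, `same_of_ker`       : the tangent space criterion.
-/

set_option autoImplicit false
set_option linter.unusedSectionVars false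

noncomputable section

namespace Crest.Agent.X262.Eqi

open Crest.Agent.X262.Vb Crest.Agent.X262.End66
open MvPolynomial

variable {J : Type} [Fintype J] [DecidableEq J] {io : J → Type} [∀ j, Fintype (io j)]
  [∀ j, DecidableEq (io j)] {A A' : Type} [Fintype A] [Fintype A']
  {T : Tgt io A} {T' : Tgt io A'} {g : MvPolynomial (Vr io) ℂ} {c c' : ℕ} {η : Pnt io ℂ}

theorem pv_eval (η : Pnt io ℂ) (q : MvPolynomial (Vr io) ℂ) :
    pv η q = eval (fun v : Vr io => η v.1 v.2) q := by simp [pv]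

theorem pv_prod_X {E : Type} [Field E] [Algebra ℂ E] (y : Pnt io E) (i : (j : J) → io j) :
    pv y (∏ j, X ⟨j, i j⟩) = ∏ j, y j (i j) := by simp [pv]

theorem nz_of_ne {E : Type} [Field E] [Algebra ℂ E] {y : Pnt io E} {i : (j : J) → io j}
    (h : pv y (∏ j, X ⟨j, i j⟩) ≠ 0) : NZ y := fun j =>
  ⟨i j, Finset.prod_ne_zero_iff.1 (pv_prod_X y i ▸ h) j (Finset.mem_univ j)⟩

theorem exists_ne {E : Type} [Field E] [Algebra ℂ E] {y : Pnt io E} (h : NZ y) :
    ∃ i : (j : J) → io j, pv y (∏ j, X ⟨j, i j⟩) ≠ 0 := by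
  choose i hi using h
  exact ⟨i, pv_prod_X y i ▸ Finset.prod_ne_zero_iff.2 fun j _ => hi j⟩

/-- local membership can be tested at the complex points -/
theorem loc_of_cx (h : ∀ η : Pnt io ℂ, NZ η → T.On η →
    ∃ s, pv η s ≠ 0 ∧ s * g ∈ Ideal.span (Set.range T.F)) : Loc T g := by
  intro E _ _ y hy _
  obtain ⟨i, hi⟩ := exists_ne hy
  obtain ⟨N, hN⟩ := Syz.pow_mul_mem (Ideal.span (Set.range T.F)) (∏ j, X ⟨j, i j⟩) g
    fun z hz hu => h (fun j i => z ⟨j, i⟩) (nz_of_ne (i := i) hu)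
      fun a => hz _ (Ideal.subset_span ⟨a, rfl⟩)
  exact ⟨_, (map_pow _ _ N).trans_ne (pow_ne_zero N hi), hN⟩

theorem dp_sub {E : Type} [Field E] [Algebra ℂ E] (y : Pnt io E) (w : Vr io → E)
    (p q : MvPolynomial (Vr io) ℂ) : dp y w (p - q) = dp y w p - dp y w q := by
  simp only [dp, pv, map_sub, sub_mul, Finset.sum_sub_distrib]

theorem dp_lin (η : Pnt io ℂ) (w : Vr io → ℂ) {ι : Type} [Fintype ι] (l : ι → ℂ)
    (f : ι → MvPolynomial (Vr io) ℂ) : dp η w (∑ i, C (l i) * f i) = ∑ i, l i * dp η w (f i) := by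
  rw [dp_sum]
  exact Finset.sum_congr rfl fun i _ => by simp [dp, pv, Finset.mul_sum, mul_assoc]

/-- linear algebra: a functional which vanishes on the common kernel -/
theorem exists_comb {V ι : Type} [AddCommGroup V] [Module ℂ V] [Fintype ι] (L : ι → V →ₗ[ℂ] ℂ)
    (K : V →ₗ[ℂ] ℂ) (h : ∀ v, (∀ i, L i v = 0) → K v = 0) :
    ∃ l : ι → ℂ, ∀ v, K v = ∑ i, l i * L i v := by
  obtain ⟨l, hl⟩ := (Submodule.mem_span_range_iff_exists_fun ℂ).1
    (mem_span_of_iInf_ker_le_ker (L := L) (K := K) fun v hv =>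
      h v fun i => (Submodule.mem_iInf _).1 hv i)
  exact ⟨l, fun v => by simp [← hl]⟩

/-- the maximal ideal of a complex point -/
abbrev mx (η : Pnt io ℂ) : Ideal (MvPolynomial (Vr io) ℂ) :=
  Fano21.nn fun v : Vr io => η v.1 v.2

theorem mem_mx {q : MvPolynomial (Vr io) ℂ} : q ∈ mx η ↔ pv η q = 0 := by
  rw [pv_eval, Fano21.mem_nn]

/-- at a smooth point the differential is injective on `I / m I` -/
theorem mem_smul {S : Vb.Syz T} (hS : S.Reg c η) (hO : T.On η) {x : MvPolynomial (Vr io) ℂ}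
    (hx : x ∈ Ideal.span (Set.range T.F)) (h0 : ∀ w, dp η w x = 0) :
    x ∈ mx η • Ideal.span (Set.range T.F) := by
  classical
  obtain ⟨u, rfl⟩ := Ideal.mem_span_range_iff_exists_fun.1 hx
  obtain ⟨l, hl⟩ := exists_comb (fun b => Fintype.linearCombination ℂ fun a => pv η (S.ρ b a))
    (Fintype.linearCombination ℂ fun a => pv η (u a)) fun σ hσ => by
      obtain ⟨w, rfl⟩ := hS.2 σ fun b => by
        simpa [Fintype.linearCombination_apply, mul_comm] using hσ b
      simpa [Fintype.linearCombination_apply, mul_comm, dp_sum, dp_mul, hO _, jac_eq] using h0 w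
  have h1 : ∑ a, u a * T.F a = ∑ a, (u a - ∑ b, C (l b) * S.ρ b a) * T.F a := by
    simp only [sub_mul, Finset.sum_sub_distrib, Finset.sum_mul, mul_assoc]
    rw [Finset.sum_comm (s := Finset.univ (α := A))]
    simp only [← Finset.mul_sum, S.syz, mul_zero, Finset.sum_const_zero, sub_zero]
  rw [h1]
  refine Submodule.sum_mem _ fun a _ =>
    Submodule.smul_mem_smul (mem_mx.2 ?_) (Ideal.subset_span ⟨a, rfl⟩)
  simpa [pv, sub_eq_zero] using hl (Pi.single a 1)

/-- **Nakayama** -/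
theorem exists_mul_mem {S : Vb.Syz T} (hS : S.Reg c η) (hO : T.On η)
    {N : Ideal (MvPolynomial (Vr io) ℂ)}
    (h : ∀ a, ∃ G ∈ N, (∃ s, pv η s ≠ 0 ∧ s * G ∈ Ideal.span (Set.range T.F)) ∧
      ∀ w, dp η w G = T.jac η w a) :
    ∃ r, pv η r ≠ 0 ∧ ∀ x ∈ Ideal.span (Set.range T.F), r * x ∈ N := by
  classical
  obtain ⟨r, h1, h2⟩ := Submodule.exists_sub_one_mem_and_smul_le_of_fg_of_le_sup (I := mx η)
    (N := N) (IsNoetherian.noetherian (Ideal.span (Set.range T.F))) le_rfl (Ideal.span_le.2 (by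
      rintro _ ⟨a, rfl⟩
      obtain ⟨G, hG, ⟨s, hs0, hs⟩, hd⟩ := h a
      have ha : T.F a ∈ Ideal.span (Set.range T.F) := Ideal.subset_span ⟨a, rfl⟩
      have hG0 : pv η G = 0 := Syz.on_of_loc hO hs0 hs
      have h3 := mem_smul hS hO (sub_mem (Ideal.mul_mem_left _ s ha) hs) fun w => by
        simp [dp_sub, dp_mul, hO a, hG0, hd, jac_eq]
      have h4 : (s - C (pv η s)) • T.F a ∈ mx η • Ideal.span (Set.range T.F) :=
        Submodule.smul_mem_smul (mem_mx.2 (by simp [pv])) ha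
      have h5 := Ideal.mul_mem_left _ (C (pv η s)⁻¹) (add_mem
        (Submodule.mem_sup_left (N.mul_mem_left s hG)) (Submodule.mem_sup_right (sub_mem h3 h4)))
      rwa [smul_eq_mul (s - _), show s * G + (s * T.F a - s * G - (s - C (pv η s)) * T.F a) =
        C (pv η s) * T.F a by ring, ← mul_assoc, ← map_mul, inv_mul_cancel₀ hs0, map_one,
        one_mul] at h5))
  refine ⟨r, fun h0 => ?_, fun x hx => h2 (Submodule.smul_mem_pointwise_smul x r _ hx)⟩
  have := mem_mx.1 h1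
  simp only [pv, map_sub, map_one] at this h0
  simp [h0] at this

/-- local generators with independent differentials -/
theorem exists_gens {S : Vb.Syz T} (hS : S.Reg c η) (hO : T.On η) :
    ∃ (n : ℕ) (e : Fin n → A), (∀ l : Fin n → ℂ, (∀ w, ∑ i, l i * T.jac η w (e i) = 0) → l = 0) ∧
      ∃ r, pv η r ≠ 0 ∧ ∀ x ∈ Ideal.span (Set.range T.F),
        r * x ∈ Ideal.span (Set.range fun i => T.F (e i)) := by
  classical
  let v : A → (Vr io → ℂ) →ₗ[ℂ] ℂ := fun a => (LinearMap.proj a).comp (T.jac η)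
  obtain ⟨κ, e, he, hsp, hli⟩ := exists_linearIndependent' ℂ v
  have := Finite.of_injective e he
  obtain ⟨n, ⟨φ⟩⟩ := Finite.exists_equiv_fin κ
  refine ⟨n, fun i => e (φ.symm i), fun l hl => funext fun i =>
    Fintype.linearIndependent_iff.1 (hli.comp _ φ.symm.injective) l
      (LinearMap.ext fun w => by simpa [v] using hl w) i, exists_mul_mem hS hO fun a => ?_⟩
  have h1 : v a ∈ Submodule.span ℂ (Set.range ((v ∘ e) ∘ φ.symm)) := by
    rw [φ.symm.surjective.range_comp, hsp]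
    exact Submodule.subset_span ⟨a, rfl⟩
  obtain ⟨l, hl⟩ := (Submodule.mem_span_range_iff_exists_fun ℂ).1 h1
  refine ⟨∑ i, C (l i) * T.F (e (φ.symm i)),
    Ideal.sum_mem _ fun i _ => Ideal.mul_mem_left _ _ (Ideal.subset_span ⟨i, rfl⟩),
    ⟨1, by simp [pv], Ideal.mul_mem_left _ _ (Ideal.sum_mem _ fun i _ =>
      Ideal.mul_mem_left _ _ (Ideal.subset_span ⟨_, rfl⟩))⟩, fun w => ?_⟩
  simpa [dp_lin, v, jac_eq] using LinearMap.congr_fun hl w

/-- a smooth point is a reduced point -/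
theorem loc_at {S : Vb.Syz T} (hS : S.Reg c η) (hη : NZ η) (hO : T.On η)
    (hg : ∀ y : Pnt io ℂ, NZ y → T.On y → pv y g = 0) :
    ∃ s, pv η s ≠ 0 ∧ s * g ∈ Ideal.span (Set.range T.F) := by
  obtain ⟨n, e, he, r, hr0, hr⟩ := exists_gens hS hO
  have hle : Ideal.span (Set.range fun i => T.F (e i)) ≤ Ideal.span (Set.range T.F) :=
    Ideal.span_mono (by rintro _ ⟨i, rfl⟩; exact ⟨_, rfl⟩)
  have hP := Fano21.locP_isPrime (fun i => T.F (e i)) (fun v : Vr io => η v.1 v.2)
    (fun i => (pv_eval η _).symm.trans (hO _)) fun l hl => he l fun w => by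
      simpa only [jac_eq, dp, pv_eval, Fano21.dv_eq] using hl w
  obtain ⟨i, hi⟩ := exists_ne hη
  obtain ⟨m, hm⟩ := Fano21.pow_mem_of_vanish (J := Ideal.span (Set.range T.F))
    (r := (∏ j, X ⟨j, i j⟩) * g) fun z hz => by
      have h2 : ∀ q, pv (fun j i => z ⟨j, i⟩) q = eval z q := fun q => pv_eval _ q
      rw [← h2, pv_mul, mul_eq_zero, or_iff_not_imp_left]
      exact fun h0 => hg _ (nz_of_ne h0) fun a => (h2 _).trans (hz _ (Ideal.subset_span ⟨a, rfl⟩))
  obtain ⟨s, hs0, hs⟩ := Fano21.mem_locP.1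
    (hP.mem_of_pow_mem m (Fano21.mem_locP.2 ⟨r, (pv_eval η r).symm.trans_ne hr0, hr _ hm⟩))
  refine ⟨s * ∏ j, X ⟨j, i j⟩, ?_, ?_⟩
  · rw [pv_mul]
    exact mul_ne_zero ((pv_eval η s).trans_ne hs0) hi
  · rw [mul_assoc]
    exact hle hs

/-- **smooth targets are reduced** -/
theorem loc_of_points (h : Smo T c) (hg : ∀ y : Pnt io ℂ, NZ y → T.On y → pv y g = 0) :
    Loc T g := by
  obtain ⟨-, S, hS⟩ := h
  exact loc_of_cx fun η hη hO => loc_at (hS ℂ η hη hO) hη hO hg

/-- smooth targets with the same complex points -/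
theorem same_of_points (h : Smo T c) (h' : Smo T' c')
    (hp : ∀ y : Pnt io ℂ, NZ y → (T.On y ↔ T'.On y)) : Same T T' :=
  ⟨fun b => loc_of_points h fun y hy hO => (hp y hy).1 hO b,
    fun a => loc_of_points h' fun y hy hO => (hp y hy).2 hO a⟩

/-- the tangent space criterion at one point -/
theorem loc_at_ker {S' : Vb.Syz T'} (hS : S'.Reg c' η) (hO' : T'.On η)
    (hl : ∀ a, ∃ s, pv η s ≠ 0 ∧ s * T.F a ∈ Ideal.span (Set.range T'.F))
    (hk : ∀ w, T.jac η w = 0 → T'.jac η w = 0) :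
    ∃ r, pv η r ≠ 0 ∧ ∀ x ∈ Ideal.span (Set.range T'.F), r * x ∈ Ideal.span (Set.range T.F) := by
  classical
  refine exists_mul_mem hS hO' fun b => ?_
  obtain ⟨l, hl'⟩ := exists_comb (fun a => (LinearMap.proj a).comp (T.jac η))
    ((LinearMap.proj b).comp (T'.jac η)) fun w hw => congrFun (hk w (funext hw)) b
  choose s hs0 hs using hl
  refine ⟨∑ a, C (l a) * T.F a,
    Ideal.sum_mem _ fun a _ => Ideal.mul_mem_left _ _ (Ideal.subset_span ⟨a, rfl⟩),
    ⟨∏ a, s a, ?_, ?_⟩, fun w => by simpa [dp_lin, jac_eq] using (hl' w).symm⟩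
  · exact (map_prod _ _ _).trans_ne (Finset.prod_ne_zero_iff.2 fun a _ => hs0 a)
  · rw [Finset.mul_sum]
    refine Ideal.sum_mem _ fun a _ => ?_
    rw [← Finset.prod_erase_mul _ _ (Finset.mem_univ a), mul_assoc, mul_left_comm (s a)]
    exact Ideal.mul_mem_left _ _ (Ideal.mul_mem_left _ _ (hs a))

/-- **the tangent space criterion**: the points and the tangent spaces of a smooth target -/
theorem same_of_ker (h' : Smo T' c') (hp : ∀ y : Pnt io ℂ, NZ y → (T.On y ↔ T'.On y))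
    (hk : ∀ y : Pnt io ℂ, NZ y → T.On y → ∀ w, T.jac y w = 0 → T'.jac y w = 0) : Same T T' := by
  have h1 : ∀ a, Loc T' (T.F a) := fun a => loc_of_points h' fun y hy hO => (hp y hy).2 hO a
  obtain ⟨-, S, hS⟩ := h'
  refine ⟨fun b => loc_of_cx fun η hη hO => ?_, h1⟩
  have hO' := (hp η hη).1 hO
  obtain ⟨r, h0, hr⟩ := loc_at_ker (hS ℂ η hη hO') hO' (fun a => h1 a ℂ η hη hO') (hk η hη hO)
  exact ⟨r, h0, hr _ (Ideal.subset_span ⟨b, rfl⟩)⟩

/-- the same with ranks -/
theorem same_of_rank (h' : Smo T' c') (hp : ∀ y : Pnt io ℂ, NZ y → (T.On y ↔ T'.On y))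
    (hk : ∀ y : Pnt io ℂ, NZ y → T.On y → c' ≤ Module.finrank ℂ (T.Nm y)) : Same T T' := by
  refine same_of_ker h' hp fun y hy hO w hw => ?_
  have hO' := (hp y hy).1 hO
  have h1 : LinearMap.ker (T'.jac y) ≤ LinearMap.ker (T.jac y) := fun w hw => funext fun a =>
    (jac_eq T y w a).trans
      ((loc_of_points h' fun y hy hO => (hp y hy).2 hO a).dp_eq_zero hy hO' hw)
  have h2 := LinearMap.finrank_range_add_finrank_ker (T.jac y)
  have h3 := LinearMap.finrank_range_add_finrank_ker (T'.jac y)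
  have h4 : Module.finrank ℂ (LinearMap.range (T'.jac y)) = c' :=
    (h'.2.choose_spec ℂ y hy hO').1
  have h5 : c' ≤ Module.finrank ℂ (LinearMap.range (T.jac y)) := hk y hy hO
  exact (Submodule.eq_of_le_of_finrank_le h1 (by omega)).ge hw

end Crest.Agent.X262.Eqi
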